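import Vale.Agent.P071.Top

open Vale.Agent.P071

theorem Vale.Agent.Results.P071.HotSpots.result (Ω : Set ℂ) (hO : IsOpen Ω)
    (hb : Bornology.IsBounded Ω) (hc : IsConnected Ω) (hL : LipBdry Ω) (hs : IsSimplyConnected Ω)
    (u : ℂ → ℝ) (hu : InV Ω u) (hsm : ContDiffOn ℝ (⊤ : ℕ∞) u Ω)
    (hcl : ContinuousOn u (closure Ω)) (hne : ∃ x ∈ Ω, u x ≠ 0) :
    (∀ x ∈ Ω, fderiv ℝ u x ≠ 0) ∧
    ∃ p ∈ frontier Ω, ∃ q ∈ frontier Ω, IsMinOn u (frontier Ω) p ∧ IsMaxOn u (frontier Ω) q ∧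
      ∀ x ∈ Ω, u p < u x ∧ u x < u q :=
  have h := no_crit hO hb hc hL hs hu (hsm.of_le (WithTop.coe_le_coe.2 (le_top (a := (3 : ℕ∞))))) hcl hne
  ⟨h, hot_spots₂ hO hb hc.nonempty hcl h⟩
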